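import Vale.Agent.P022D.V.Defs

namespace Vale.Agent.P022F.V
export Vale.Agent.P022D.V (
  dg_one Sf Fil un_coe av_inj Tf rd e6 GM Vs IsTp av_mem dg Uo VV Od Vf rt_apply HS red
  dg_mul dg_comm mem_L L FT rt e4 av dg_coe ct av_alg av_amk RR Uf rd_apply mp Ex AA un
  dg_center Co amk Gal Vo)
end Vale.Agent.P022F.V

namespace Vale.Agent.P022F.V.Co
export Vale.Agent.P022D.V.Co (
  stab mem A two fix arch mk j rk)
end Vale.Agent.P022F.V.Co

namespace Vale.Agent.P022F.V.IsTp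
export Vale.Agent.P022D.V.IsTp (
  mk bdd eqv)
end Vale.Agent.P022F.V.IsTp
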