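import Vale.Agent.P022D.V.Defs3
import Vale.Agent.P022F.V.Defs2

namespace Vale.Agent.P022F.V
export Vale.Agent.P022D.V (
  eB VD eD ml dv_mk cD zD XD RD dv eD_zero mkD BB eD_mul ml_coeff eD_eq_zero XD1 mem_BB cB
  alg_RD JJ eD_add dv0)
end Vale.Agent.P022F.V
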