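import Vale.Agent.P022D.V.Grp
import Vale.Agent.P022F.V.Spec2

namespace Vale.Agent.P022F.V.GrpP.Dat
export Vale.Agent.P022D.V.GrpP.Dat (
  add fM mu ss fq kq inv ee kq' cg ext rep mm isS eq eM symm mk mul kmul)
end Vale.Agent.P022F.V.GrpP.Dat

namespace Vale.Agent.P022F.V
export Vale.Agent.P022D.V (
  grp)
end Vale.Agent.P022F.V

namespace Vale.Agent.P022F.V.GrpP
export Vale.Agent.P022D.V.GrpP (
  mix_e Mt un_kq Dat det_val sl mix_f mix low dg_kq dat)
end Vale.Agent.P022F.V.GrpP
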